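import Mathlib.GroupTheory.Finiteness
import Mathlib.GroupTheory.QuotientGroup.Basic
import Mathlib.GroupTheory.SpecificGroups.Cyclic
import Mathlib.GroupTheory.Subgroup.Simple
import Mathlib.Tactic

/-!
# P196: elementary amenable groups, and finitely generated simple ones
-/

namespace Vale.Agent.P196.H476

/-- Elementary amenable groups (Day): the smallest class of groups that contains all finite groups
and all abelian groups and is closed under isomorphism, subgroups, quotients, extensions and
directed unions. -/
inductive ElementaryAmenable : (G : Type) → [Group G] → Prop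
  | finite (G : Type) [Group G] (h : Finite G) : ElementaryAmenable G
  | abelian (G : Type) [Group G] (h : ∀ a b : G, a * b = b * a) : ElementaryAmenable G
  | iso (G H : Type) [Group G] [Group H] (e : G ≃* H) (h : ElementaryAmenable G) :
      ElementaryAmenable H
  | subgroup (G : Type) [Group G] (H : Subgroup G) (h : ElementaryAmenable G) :
      ElementaryAmenable H
  | quotient (G : Type) [Group G] (N : Subgroup G) [N.Normal] (h : ElementaryAmenable G) :
      ElementaryAmenable (G ⧸ N)
  | extension (G : Type) [Group G] (N : Subgroup G) [N.Normal] (h : ElementaryAmenable N)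
      (h' : ElementaryAmenable (G ⧸ N)) : ElementaryAmenable G
  | directedUnion (G : Type) [Group G] (ι : Type) [Nonempty ι] (H : ι → Subgroup G)
      (hd : Directed (· ≤ ·) H) (hU : ∀ g : G, ∃ i, g ∈ H i)
      (h : ∀ i, ElementaryAmenable (H i)) : ElementaryAmenable G

/-- every finitely generated simple section of `G` is finite -/
def SecFin (G : Type) [Group G] : Prop :=
  ∀ (S : Type) [Group S], Group.FG S → IsSimpleGroup S →
    ∀ (H : Subgroup G) (f : H →* S), Function.Surjective f → Finite S

lemma secFin_of_hom {G G' : Type} [Group G] [Group G'] (q : G →* G')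
    (hq : SecFin G) (S : Type) [Group S] (hS : Group.FG S) (hs : IsSimpleGroup S)
    (H : Subgroup G') (hH : ∀ y ∈ H, ∃ x, q x = y) (f : H →* S)
    (hf : Function.Surjective f) : Finite S := by
  let g : H.comap q →* H :=
    { toFun := fun x => ⟨q x.1, x.2⟩
      map_one' := by ext; simp
      map_mul' := fun x y => by ext; simp }
  refine hq S hS hs (H.comap q) (f.comp g) fun s => ?_
  obtain ⟨y, rfl⟩ := hf s
  obtain ⟨x, hx⟩ := hH y.1 y.2
  have hxm : x ∈ H.comap q := by
    rw [Subgroup.mem_comap, hx]
    exact y.2
  refine ⟨⟨x, hxm⟩, ?_⟩
  have : g ⟨x, hxm⟩ = y := Subtype.ext hx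
  rw [MonoidHom.comp_apply, this]

lemma secFin_of_inj {G G' : Type} [Group G] [Group G'] (j : G' →* G)
    (hj : Function.Injective j) (hq : SecFin G) : SecFin G' := by
  intro S _ hS hs H f hf
  let e : H ≃* H.map j := H.equivMapOfInjective j hj
  exact hq S hS hs (H.map j) (f.comp e.symm.toMonoidHom) (hf.comp e.symm.surjective)

theorem secFin_of_ea {G : Type} [Group G] (h : ElementaryAmenable G) : SecFin G := by
  induction h with
  | finite G hG =>
    intro S _ _ _ H f hf
    exact Finite.of_surjective f hf
  | abelian G hG =>
    intro S _ _ hs H f hf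
    have hcomm : ∀ a b : S, a * b = b * a := by
      intro a b
      obtain ⟨x, rfl⟩ := hf a
      obtain ⟨y, rfl⟩ := hf b
      rw [← map_mul, ← map_mul]
      congr 1
      exact Subtype.ext (hG _ _)
    let _ : CommGroup S := { ‹Group S› with mul_comm := hcomm }
    have hp : (Nat.card S).Prime := IsSimpleGroup.prime_card
    exact Nat.finite_of_card_ne_zero hp.ne_zero
  | iso G H e _ ih => exact secFin_of_inj e.symm.toMonoidHom e.symm.injective ih
  | subgroup G H _ ih => exact secFin_of_inj H.subtype H.subtype_injective ih
  | quotient G N _ ih =>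
    intro S _ hS hs H f hf
    exact secFin_of_hom (QuotientGroup.mk' N) ih S hS hs H
      (fun y _ => QuotientGroup.mk'_surjective N y) f hf
  | extension G N _ _ ih1 ih2 =>
    intro S _ hS hs H f hf
    let K : Subgroup S := (N.subgroupOf H).map f
    have hK : K.Normal := Subgroup.Normal.map inferInstance f hf
    rcases hs.eq_bot_or_eq_top_of_normal K hK with hb | ht
    · -- the section comes from the quotient
      let p : H →* H.map (QuotientGroup.mk' N) := (QuotientGroup.mk' N).subgroupMap H
      have hp : Function.Surjective p := MonoidHom.subgroupMap_surjective _ _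
      have hker : p.ker ≤ f.ker := by
        intro x hx
        have h1 : (QuotientGroup.mk' N) x.1 = 1 := by
          have := congrArg Subtype.val (MonoidHom.mem_ker.1 hx)
          simpa [p] using this
        have h2 : x.1 ∈ N := by
          simpa using h1
        have h3 : f x ∈ K := ⟨x, h2, rfl⟩
        rw [hb, Subgroup.mem_bot] at h3
        exact MonoidHom.mem_ker.2 h3
      let f' : H.map (QuotientGroup.mk' N) →* S := p.liftOfSurjective hp ⟨f, hker⟩
      have hf' : Function.Surjective f' := by
        intro s
        obtain ⟨x, rfl⟩ := hf s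
        exact ⟨p x, MonoidHom.liftOfRightInverse_comp_apply _ _ _ _ _⟩
      exact ih2 S hS hs _ f' hf'
    · -- the section comes from the normal subgroup
      let g : H.subgroupOf N →* S :=
        { toFun := fun x => f ⟨x.1.1, x.2⟩
          map_one' := by
            rw [← map_one f]
            rfl
          map_mul' := fun x y => by
            rw [← map_mul]
            rfl }
      refine ih1 S hS hs (H.subgroupOf N) g fun s => ?_
      have hs' : s ∈ K := by
        rw [ht]
        trivial
      obtain ⟨x, hx, rfl⟩ := hs'
      exact ⟨⟨⟨x.1, hx⟩, x.2⟩, rfl⟩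
  | directedUnion G ι H hd hU _ ih =>
    intro S _ hS hs L f hf
    obtain ⟨T, hT⟩ := Group.fg_iff.1 hS
    choose g hg using fun s : S => hf s
    choose i hi using fun x : L => hU x.1
    obtain ⟨k, hk⟩ := hd.finite_set_le (hT.2.image fun s => i (g s))
    let e : L.subgroupOf (H k) →* S :=
      { toFun := fun x => f ⟨x.1.1, x.2⟩
        map_one' := by
          rw [← map_one f]
          rfl
        map_mul' := fun x y => by
          rw [← map_mul]
          rfl }
    refine ih k S hS hs (L.subgroupOf (H k)) e ?_
    rw [← MonoidHom.range_eq_top, eq_top_iff, ← hT.1, Subgroup.closure_le]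
    intro s hs'
    have h1 : (g s).1 ∈ H k := hk _ ⟨s, hs', rfl⟩ (hi (g s))
    exact ⟨⟨⟨(g s).1, h1⟩, (g s).2⟩, hg s⟩

/-- A finitely generated simple elementary amenable group is finite. -/
theorem finite_of_ea {G : Type} [Group G] (h : ElementaryAmenable G) (hG : Group.FG G)
    (hs : IsSimpleGroup G) : Finite G :=
  secFin_of_ea h G hG hs ⊤ (Subgroup.topEquiv (G := G)).toMonoidHom
    (Subgroup.topEquiv (G := G)).surjective

theorem not_EA_of_fg_simple_infinite (G : Type) [Group G] (hG : Group.FG G)
    (hs : IsSimpleGroup G) (hi : Infinite G) : ¬ ElementaryAmenable G := fun h =>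
  not_finite_iff_infinite.2 hi (finite_of_ea h hG hs)

end Vale.Agent.P196.H476
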