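import Mathlib.GroupTheory.FinitelyPresentedGroup
import Mathlib.Data.Set.Finite.List
import Mathlib.GroupTheory.FreeGroup.Reduce
import Mathlib.GroupTheory.Subgroup.Simple
import Mathlib.Tactic

/-!
# P196: finitely presented simple groups that are locally embeddable into finite groups
-/

namespace Vale.Agent.P196.H476

/-- Locally embeddable into finite groups: every finite subset `E` admits an injective map into a
finite group that preserves every product `g * h` with `g, h, g * h` in `E`. -/
def LocallyEmbeddableIntoFinite (G : Type) [Group G] : Prop :=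
  ∀ E : Finset G, ∃ (F : Type) (_ : Group F) (_ : Finite F) (φ : G → F),
    Set.InjOn φ E ∧ ∀ g ∈ E, ∀ h ∈ E, g * h ∈ E → φ (g * h) = φ g * φ h


/-- A finitely presented simple group that is locally embeddable into finite groups is finite. -/
theorem finite_of_lef {G : Type} [Group G] (hL : LocallyEmbeddableIntoFinite G)
    (hG : Group.IsFinitelyPresented G) (hs : IsSimpleGroup G) : Finite G := by
  classical
  obtain ⟨n, π, hπ, R, hR, hker⟩ := hG.out
  -- the bound on the length
  obtain ⟨m, hm⟩ : ∃ m : ℕ, ∀ r ∈ R, r.toWord.length ≤ m := by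
    obtain ⟨m, hm⟩ := (hR.image fun r => r.toWord.length).bddAbove
    exact ⟨m, fun r hr => hm ⟨r, hr, rfl⟩⟩
  have hfin : {l : List (Fin n × Bool) | l.length ≤ m + 1}.Finite :=
    List.finite_length_le _ _
  let E : Finset G := hfin.toFinset.image fun l => π (FreeGroup.mk l)
  have hE : ∀ l : List (Fin n × Bool), l.length ≤ m + 1 → π (FreeGroup.mk l) ∈ E := by
    intro l hl
    exact Finset.mem_image.2 ⟨l, hfin.mem_toFinset.2 hl, rfl⟩
  obtain ⟨F, _, _, φ, hinj, hmul⟩ := hL E
  have h1E : (1 : G) ∈ E := by
    have h0 := hE [] (by simp)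
    have h2 : FreeGroup.mk ([] : List (Fin n × Bool)) = 1 := rfl
    rw [h2, map_one] at h0
    exact h0
  have hφ1 : φ 1 = 1 := by
    have := hmul 1 h1E 1 h1E (by simpa using h1E)
    simpa using this
  let ψ : FreeGroup (Fin n) →* F := FreeGroup.lift fun i => φ (π (FreeGroup.of i))
  have hlet : ∀ (i : Fin n) (b : Bool), φ (π (FreeGroup.mk [(i, b)])) = ψ (FreeGroup.mk [(i, b)]) := by
    intro i b
    have hT : φ (π (FreeGroup.mk [(i, true)])) = ψ (FreeGroup.mk [(i, true)]) := by
      change _ = FreeGroup.lift (fun i => φ (π (FreeGroup.of i))) (FreeGroup.of i)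
      rw [FreeGroup.lift_apply_of]
      rfl
    cases b
    · have h2 : FreeGroup.mk [(i, false)] = (FreeGroup.mk [(i, true)])⁻¹ := by
        rw [FreeGroup.inv_mk]
        rfl
      have ha : π (FreeGroup.mk [(i, true)]) ∈ E := hE _ (by simp)
      have hb : π (FreeGroup.mk [(i, false)]) ∈ E := hE _ (by simp)
      have h3 : π (FreeGroup.mk [(i, true)]) * π (FreeGroup.mk [(i, false)]) = 1 := by
        rw [h2, map_inv, mul_inv_cancel]
      have h4 := hmul _ ha _ hb (by rw [h3]; exact h1E)
      rw [h3, hφ1] at h4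
      have h5 : ψ (FreeGroup.mk [(i, false)]) = (ψ (FreeGroup.mk [(i, true)]))⁻¹ := by
        rw [h2, map_inv]
      rw [h5, ← hT]
      exact eq_inv_of_mul_eq_one_right h4.symm
    · exact hT
  have hword : ∀ l : List (Fin n × Bool), l.length ≤ m →
      φ (π (FreeGroup.mk l)) = ψ (FreeGroup.mk l) := by
    intro l
    induction l with
    | nil =>
      intro _
      have : FreeGroup.mk ([] : List (Fin n × Bool)) = 1 := rfl
      rw [this, map_one, map_one, hφ1]
    | cons s l ih =>
      intro hl
      have h2 : FreeGroup.mk (s :: l) = FreeGroup.mk [s] * FreeGroup.mk l := by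
        rw [FreeGroup.mul_mk]
        rfl
      have hl' : l.length ≤ m := by
        rw [List.length_cons] at hl
        omega
      have ha : π (FreeGroup.mk [s]) ∈ E := hE _ (by simp)
      have hb : π (FreeGroup.mk l) ∈ E := hE _ (by omega)
      have hc : π (FreeGroup.mk [s]) * π (FreeGroup.mk l) ∈ E := by
        rw [← map_mul, ← h2]
        exact hE _ (by omega)
      rw [h2, map_mul, map_mul, hmul _ ha _ hb hc, ih hl', hlet]
  have hrel : ∀ r ∈ R, ψ r = 1 := by
    intro r hr
    have h2 := hword r.toWord (hm r hr)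
    rw [FreeGroup.mk_toWord] at h2
    have h3 : π r = 1 := by
      rw [← MonoidHom.mem_ker, ← hker]
      exact Subgroup.subset_normalClosure hr
    rw [← h2, h3, hφ1]
  have hle : π.ker ≤ ψ.ker := by
    rw [← hker]
    exact Subgroup.normalClosure_le_normal fun r hr => MonoidHom.mem_ker.2 (hrel r hr)
  let θ : G →* F := π.liftOfSurjective hπ ⟨ψ, hle⟩
  have hθ : ∀ x, θ (π x) = ψ x := fun x => MonoidHom.liftOfRightInverse_comp_apply _ _ _ _ _
  rcases hs.eq_bot_or_eq_top_of_normal θ.ker inferInstance with hb | ht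
  · exact Finite.of_injective θ ((MonoidHom.ker_eq_bot_iff θ).1 hb)
  · exfalso
    -- all generators are trivial
    have h2 : ∀ i : Fin n, π (FreeGroup.of i) = 1 := by
      intro i
      have h3 : θ (π (FreeGroup.of i)) = 1 := by
        rw [← MonoidHom.mem_ker, ht]
        trivial
      rw [hθ] at h3
      have h4 : ψ (FreeGroup.of i) = φ (π (FreeGroup.of i)) := FreeGroup.lift_apply_of
      rw [h4, ← hφ1] at h3
      have h5 : π (FreeGroup.of i) ∈ E := hE [(i, true)] (by simp)
      exact hinj h5 h1E h3
    have h3 : π = 1 := by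
      ext i
      rw [h2]
      rfl
    obtain ⟨g, hg⟩ := exists_ne (1 : G)
    obtain ⟨x, rfl⟩ := hπ g
    rw [h3] at hg
    exact hg rfl

theorem not_LEF_of_fp_simple_infinite (G : Type) [Group G] (hG : Group.IsFinitelyPresented G)
    (hs : IsSimpleGroup G) (hi : Infinite G) : ¬ LocallyEmbeddableIntoFinite G := fun h =>
  not_finite_iff_infinite.2 hi (finite_of_lef h hG hs)

end Vale.Agent.P196.H476
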