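import Vale.Agent.P196.Bdl.B1

/-!
# P196: no infinite finitely presented simple group acts on the line with bounded displacement
-/

namespace Vale.Agent.P196.H476

open Filter

/-- A homomorphism from an infinite finitely presented simple group to the permutations of `ℤ` of
bounded displacement is trivial. -/
theorem no_line (H : Type) [Group H] (hfp : Group.IsFinitelyPresented H) (hs : IsSimpleGroup H)
    (hi : Infinite H) (f : H →* Equiv.Perm ℤ)
    (hf : ∀ g, ∃ r : ℤ, ∀ x, |f g x - x| ≤ r) : f = 1 := by
  classical
  have hq : ∀ N : Subgroup H, N.Normal → N.FiniteIndex → N = ⊤ :=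
    fun N hN hfi => B.simple_no_quotient N hN hfi
  let _ : MulAction H ℤ := MulAction.compHom ℤ f
  have hsm : ∀ (g : H) (x : ℤ), g • x = f g x := fun g x => rfl
  by_cases hall : ∀ x : ℤ, (MulAction.orbit H x).Finite
  · -- all orbits are finite
    ext g x
    have hfin : Finite (MulAction.orbit H x) := hall x
    have h1 : MulAction.toPermHom H (MulAction.orbit H x) = 1 := B.hom_finite_eq_one hq _
    have h2 : g • (⟨x, MulAction.mem_orbit_self x⟩ : MulAction.orbit H x) =
        ⟨x, MulAction.mem_orbit_self x⟩ := by
      have := congrArg (fun φ : H →* Equiv.Perm (MulAction.orbit H x) =>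
        φ g ⟨x, MulAction.mem_orbit_self x⟩) h1
      simpa using this
    have h3 := congrArg Subtype.val h2
    rw [MulAction.orbit.coe_smul] at h3
    rw [← hsm]
    simpa using h3
  · exfalso
    push Not at hall
    obtain ⟨x0, hx0⟩ := hall
    have hinf : Infinite (MulAction.orbit H x0) := Set.infinite_coe_iff.2 hx0
    have hfg : Group.FG H := by
      obtain ⟨n, φ, hφ, -⟩ := hfp.out
      exact Group.fg_of_surjective hφ
    obtain ⟨S, hS, hSf⟩ := Group.fg_iff.1 hfg
    choose r hr using hf
    -- a bound for all generators and their inverses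
    obtain ⟨L, hL⟩ : ∃ L : ℕ, ∀ s : H, (s ∈ S ∨ s⁻¹ ∈ S) → ∀ x : ℤ, |s • x - x| ≤ L := by
      obtain ⟨M, hM⟩ := (hSf.image fun s => (r s).toNat).bddAbove
      refine ⟨M, fun s hs x => ?_⟩
      have hpos : ∀ s : H, 0 ≤ r s := fun s => (abs_nonneg _).trans (hr s 0)
      have key : ∀ s ∈ S, ∀ x : ℤ, |s • x - x| ≤ M := by
        intro s hsS x
        have h1 : (r s).toNat ≤ M := hM ⟨s, hsS, rfl⟩
        have h2 := hr s x
        have h3 := hpos s
        rw [hsm]
        omega
      rcases hs with hs | hs
      · exact key s hs x
      · have h1 := key _ hs (s • x)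
        rw [inv_smul_smul, abs_sub_comm] at h1
        exact h1
    let v : MulAction.orbit H x0 := ⟨x0, MulAction.mem_orbit_self x0⟩
    have hev := B.growth_superlinear hq S hSf hS (MulAction.orbit H x0) v (2 * L + 2)
    obtain ⟨n, hn, hn1⟩ := (hev.and (eventually_ge_atTop 1)).exists
    -- the ball lies in an interval
    have hprod : ∀ (w : List H), (∀ s ∈ w, s ∈ S ∨ s⁻¹ ∈ S) → ∀ x : ℤ,
        |w.prod • x - x| ≤ L * w.length := by
      intro w
      induction w with
      | nil =>
        intro _ x
        simp
      | cons s w ih =>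
        intro hw x
        have h1 := ih (fun t ht => hw t (List.mem_cons_of_mem _ ht)) x
        have h2 := hL s (hw s List.mem_cons_self) (w.prod • x)
        rw [List.prod_cons, mul_smul, List.length_cons]
        push_cast
        have h3 : s • w.prod • x - x = (s • w.prod • x - w.prod • x) + (w.prod • x - x) := by
          ring
        rw [h3]
        refine (abs_add_le _ _).trans ?_
        linarith
    have hsub : Subtype.val '' (B.reach S v n) ⊆ Set.Icc (x0 - L * n) (x0 + L * n) := by
      rintro _ ⟨y, ⟨w, hw, hwS, rfl⟩, rfl⟩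
      rw [MulAction.orbit.coe_smul]
      have h1 := hprod w hwS x0
      have h2 : (L : ℤ) * w.length ≤ L * n := by
        have : (w.length : ℤ) ≤ n := by exact_mod_cast hw
        nlinarith [Int.natCast_nonneg L]
      rw [abs_le] at h1
      constructor <;> linarith [h1.1, h1.2]
    have hcard : (B.reach S v n).ncard ≤ 2 * L * n + 1 := by
      rw [← Set.ncard_image_of_injective _ Subtype.val_injective]
      refine (Set.ncard_le_ncard hsub (Set.finite_Icc _ _)).trans ?_
      rw [← Nat.card_coe_set_eq, Nat.card_eq_fintype_card, Fintype.card_Icc, Int.card_Icc]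
      have : x0 + L * n + 1 - (x0 - L * n) = ((2 * L * n + 1 : ℕ) : ℤ) := by
        push_cast
        ring
      rw [this, Int.toNat_natCast]
    have h4 := hn.trans hcard
    nlinarith

end Vale.Agent.P196.H476
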