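import Mathlib.Order.Filter.Ultrafilter.Basic
import Mathlib.Topology.Order.Compact
import Mathlib.Topology.Compactness.Compact
import Mathlib.Topology.Instances.Real.Lemmas
import Mathlib.Analysis.SpecificLimits.Basic
import Mathlib.Tactic

/-!
# P196: the Foelner condition gives an invariant mean
-/

namespace Vale.Agent.P196.H476

open Filter Topology

open Classical in
/-- The Foelner condition gives a left-invariant finitely additive probability measure on all
subsets. -/
theorem mean_of_foelner (G : Type) [Group G]
    (h : ∀ (K : Finset G) (ε : ℝ), 0 < ε → ∃ D : Finset G, D.Nonempty ∧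
      ∀ g ∈ K, ((symmDiff (D.image (fun x => g * x)) D).card : ℝ) < ε * D.card) :
    ∃ μ : Set G → ℝ, (∀ A, 0 ≤ μ A) ∧ μ Set.univ = 1 ∧
      (∀ A B, Disjoint A B → μ (A ∪ B) = μ A + μ B) ∧
      ∀ (g : G) (A : Set G), μ ((fun x => g * x) '' A) = μ A := by
  have h' : ∀ p : Finset G × ℕ, ∃ D : Finset G, D.Nonempty ∧
      ∀ g ∈ p.1, ((symmDiff (D.image (fun x => g * x)) D).card : ℝ) <
        (1 / ((p.2 : ℝ) + 1)) * D.card := fun p => h p.1 _ (by positivity)
  choose D hD hDK using h'
  let U : Ultrafilter (Finset G × ℕ) := Ultrafilter.of atTop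
  have hU : (U : Filter (Finset G × ℕ)) ≤ atTop := Ultrafilter.of_le atTop
  let c : Set G → (Finset G × ℕ) → ℝ := fun A p => ((D p).filter (· ∈ A)).card / (D p).card
  have hpos : ∀ p, (0 : ℝ) < (D p).card := fun p => by
    exact_mod_cast (hD p).card_pos
  have hc0 : ∀ A p, 0 ≤ c A p := fun A p => by positivity
  have hc1 : ∀ A p, c A p ≤ 1 := fun A p => by
    rw [div_le_one (hpos p)]
    exact_mod_cast Finset.card_filter_le _ _
  have hlim : ∀ A : Set G, ∃ x : ℝ, Tendsto (c A) U (𝓝 x) := by
    intro A
    obtain ⟨x, -, hx⟩ := (isCompact_Icc (a := (0 : ℝ)) (b := 1)).ultrafilter_le_nhds'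
      (U.map (c A)) (Ultrafilter.mem_map.2 (Filter.univ_mem' fun p => ⟨hc0 A p, hc1 A p⟩))
    exact ⟨x, hx⟩
  choose μ hμ using hlim
  refine ⟨μ, fun A => ?_, ?_, fun A B hAB => ?_, fun g A => ?_⟩
  · exact ge_of_tendsto' (hμ A) (hc0 A)
  · have h1 : c Set.univ = fun _ => 1 := by
      funext p
      simp only [c, Set.mem_univ, Finset.filter_true]
      exact div_self (hpos p).ne'
    have h2 := hμ Set.univ
    rw [h1] at h2
    exact tendsto_nhds_unique h2 tendsto_const_nhds
  · have h1 : c (A ∪ B) = fun p => c A p + c B p := by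
      funext p
      simp only [c]
      rw [← add_div]
      congr 1
      rw [← Nat.cast_add, ← Finset.card_union_of_disjoint]
      · congr 1
        congr 1
        ext x
        simp only [Finset.mem_filter, Finset.mem_union, Set.mem_union]
        tauto
      · rw [Finset.disjoint_filter]
        intro x _ hx hx'
        exact Set.disjoint_left.1 hAB hx hx'
    have h2 := hμ (A ∪ B)
    rw [h1] at h2
    exact tendsto_nhds_unique h2 ((hμ A).add (hμ B))
  · have key : ∀ p : Finset G × ℕ, g⁻¹ ∈ p.1 →
        |c ((fun x => g * x) '' A) p - c A p| ≤ 1 / ((p.2 : ℝ) + 1) := by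
      intro p hp
      have h1 := (hDK p g⁻¹ hp).le
      set E : Finset G := (D p).image (fun x => g⁻¹ * x) with hE
      have h2 : ((D p).filter (· ∈ (fun x => g * x) '' A)).card = (E.filter (· ∈ A)).card := by
        refine Finset.card_bij (fun x _ => g⁻¹ * x) ?_ ?_ ?_
        · intro x hx
          rw [Finset.mem_filter] at hx ⊢
          obtain ⟨hx1, y, hy, rfl⟩ := hx
          refine ⟨Finset.mem_image_of_mem _ hx1, ?_⟩
          simpa using hy
        · intro x _ y _ hxy
          exact mul_left_cancel hxy
        · intro y hy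
          rw [Finset.mem_filter] at hy
          obtain ⟨hy1, hy2⟩ := hy
          obtain ⟨x, hx, rfl⟩ := Finset.mem_image.1 hy1
          refine ⟨x, ?_, rfl⟩
          rw [Finset.mem_filter]
          exact ⟨hx, g⁻¹ * x, hy2, by simp⟩
      have h3 : ((E.filter (· ∈ A)).card : ℝ) ≤
          ((D p).filter (· ∈ A)).card + (symmDiff E (D p)).card := by
        rw [← Nat.cast_add, Nat.cast_le]
        refine le_trans (Finset.card_le_card ?_) (Finset.card_union_le _ _)
        intro x hx
        rw [Finset.mem_filter] at hx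
        rw [Finset.mem_union, Finset.mem_filter, Finset.mem_symmDiff]
        tauto
      have h4 : (((D p).filter (· ∈ A)).card : ℝ) ≤
          (E.filter (· ∈ A)).card + (symmDiff E (D p)).card := by
        rw [← Nat.cast_add, Nat.cast_le]
        refine le_trans (Finset.card_le_card ?_) (Finset.card_union_le _ _)
        intro x hx
        rw [Finset.mem_filter] at hx
        rw [Finset.mem_union, Finset.mem_filter, Finset.mem_symmDiff]
        tauto
      have h5 : |((E.filter (· ∈ A)).card : ℝ) - ((D p).filter (· ∈ A)).card| ≤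
          (1 / ((p.2 : ℝ) + 1)) * (D p).card := by
        rw [abs_le]
        constructor <;> linarith
      simp only [c]
      rw [h2, ← sub_div, abs_div, abs_of_pos (hpos p), div_le_iff₀ (hpos p)]
      exact h5
    have hev : ∀ᶠ p in (U : Filter (Finset G × ℕ)), g⁻¹ ∈ p.1 := by
      refine hU ?_
      filter_upwards [eventually_ge_atTop (({g⁻¹}, 0) : Finset G × ℕ)] with p hp
      exact hp.1 (Finset.mem_singleton_self _)
    have hsnd : Tendsto (fun p : Finset G × ℕ => 1 / ((p.2 : ℝ) + 1)) U (𝓝 0) := by
      have h1 : Tendsto (fun p : Finset G × ℕ => p.2) atTop atTop := by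
        rw [← prod_atTop_atTop_eq]
        exact tendsto_snd
      exact (tendsto_one_div_add_atTop_nhds_zero_nat.comp h1).mono_left hU
    have hdiff : Tendsto (fun p => c ((fun x => g * x) '' A) p - c A p) U (𝓝 0) := by
      refine squeeze_zero_norm' ?_ hsnd
      filter_upwards [hev] with p hp
      exact key p hp
    have h6 := (hμ ((fun x => g * x) '' A)).sub (hμ A)
    have h7 := tendsto_nhds_unique h6 hdiff
    linarith

end Vale.Agent.P196.H476
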