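import Mathlib.GroupTheory.FinitelyPresentedGroup

/-!
# P196: a finitely presented group as a presented group
-/

namespace Vale.Agent.P196.H476

theorem exists_pres (G : Type) [Group G] [Group.IsFinitelyPresented G] :
    ∃ (n : ℕ) (R : Set (FreeGroup (Fin n))), R.Finite ∧ Nonempty (PresentedGroup R ≃* G) := by
  obtain ⟨n, s, hs, ⟨e⟩⟩ := Group.IsFinitelyPresented.exists_mulEquiv_presentedGroup (G := G)
  exact ⟨n, s, hs, ⟨e.symm⟩⟩

end Vale.Agent.P196.H476
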